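import Mathlib
import Vale.Agent.Lib.P067.Defs
import Vale.Agent.Lib.P067.UFacts

/-!
# P067 part E: the groups `G_m` are finite and their order tends to infinity; the subgroups `H_s` are finite

Shared facts in UFacts.lean (sh_apply, U_sub_mem, U_map_M, L_add, M_add, U_St_add, U_St_mod, U_ext, mem_U_of; being proved there).
* `finite_Gm`: map `g` to the function `a ↦ (coefficients of g e_a in positions 1, …, m n)`, `a = 1, …, n`
  (a function `Fin n → Fin (m n) → k`, finite). Two elements `g, g'` with the same image are congruent modulo `Nc k n m`: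
  `g e_a - g' e_a ∈ M (m n)` for `0 < a ≤ n`, so by periodicity `g e_{a+ln} - g' e_{a+ln} ∈ M (m n + l n)` for all `l`, hence
  `g v - g' v ∈ M (m n)` for all `v ∈ M 0`, apply `g'⁻¹` (it preserves `M (m n)`) to get `g'⁻¹ g ∈ Nc k n m`. So the quotient is finite.
* `finite_Hs`: `g ∈ Hs k n s` is determined by `g e_l`, `s < l ≤ s + n` (`U_ext`), and `g e_l ∈ e_l + M l`, `g e_l ∈ L (s + n)`
  (`g` preserves `L (s + n)`), a finite set (finite dimensional).
* `gen_of_van`: with `K = ⨆ s, H s` take `f J x = if x ∈ K then 1 else 0`; it is invariant (`J = {s}`, `H s ≤ K`), and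
  `dl f {s, t} x = 0`; so `f {s} x = b ∅ x`, constant as `b ∅` is invariant under `HH H ∅ = ⊤`; value at `1` is `1`, so `K = ⊤`.
-/

namespace Vale.P067

open scoped Classical

section aux
variable {k : Type} [Field k] {n : ℕ}

theorem Gfin_sh_ee (l b : ℤ) : sh k l (ee k b) = ee k (b + l) := by
  ext c
  rw [sh_apply]
  simp only [ee, Finsupp.single_apply]
  by_cases h : b = c - l
  · rw [if_pos h, if_pos (by omega)]
  · rw [if_neg h, if_neg (by omega)]

theorem Gfin_sh_mul {g : E k ≃ₗ[k] E k} (hg : g ∈ U k n) (c : ℕ) (v : E k) :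
    g (sh k (n * c) v) = sh k (n * c) (g v) := by
  induction c with
  | zero =>
    have h0 : ∀ w : E k, sh k ((n : ℤ) * ((0 : ℕ) : ℤ)) w = w := by
      intro w
      ext b
      rw [sh_apply]
      simp
    rw [h0, h0]
  | succ c ih =>
    have h0 : ∀ w : E k, sh k ((n : ℤ) * ((c + 1 : ℕ) : ℤ)) w = sh k n (sh k (n * c) w) := by
      intro w
      ext b
      rw [sh_apply, sh_apply, sh_apply]
      congr 1
      push_cast
      ring
    rw [h0, h0, hg.1, ih]

/-- coordinates of `g e_a` below `a` vanish -/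
theorem Gfin_low {g : E k ≃ₗ[k] E k} (hg : g ∈ U k n) {a c : ℤ} (h : c < a) :
    g (ee k a) c = 0 := by
  have h1 := hg.2.1 a c h.le
  rw [Finsupp.sub_apply] at h1
  have h2 : ee k a c = 0 := by
    simp only [ee, Finsupp.single_apply]
    rw [if_neg (by omega)]
  rwa [h2, sub_zero] at h1

/-- the coefficients which determine `g` modulo `Nc` -/
noncomputable def Gfin_Phi (m : ℕ) (g : E k ≃ₗ[k] E k) : Fin n → Fin (m * n) → k :=
  fun a c => g (ee k ((a : ℕ) + 1 : ℤ)) ((c : ℕ) + 1 : ℤ)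

theorem Gfin_diff (hn : 1 ≤ n) (m : ℕ) {g g' : E k ≃ₗ[k] E k} (hg : g ∈ U k n) (hg' : g' ∈ U k n)
    (hP : Gfin_Phi (n := n) m g = Gfin_Phi (n := n) m g') (v : E k) (hv : v ∈ M k 0) :
    g v - g' v ∈ M k (m * n) := by
  have hbase : ∀ a : ℤ, 0 < a → a ≤ n → g (ee k a) - g' (ee k a) ∈ M k (m * n) := by
    intro a ha0 han c hc
    rw [Finsupp.sub_apply]
    rcases le_or_gt c 0 with h | h
    · rw [Gfin_low hg (by omega), Gfin_low hg' (by omega), sub_zero]
    · have h1 := congrFun (congrFun hP ⟨(a - 1).toNat, by omega⟩)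
        ⟨(c - 1).toNat, by
          zify
          rw [Int.toNat_of_nonneg (by omega)]
          omega⟩
      simp only [Gfin_Phi] at h1
      rw [Int.toNat_of_nonneg (by omega), Int.toNat_of_nonneg (by omega), sub_add_cancel,
        sub_add_cancel] at h1
      rw [h1, sub_self]
  have hee : ∀ b : ℤ, 0 < b → g (ee k b) - g' (ee k b) ∈ M k (m * n) := by
    intro b hb
    have hn' : (0 : ℤ) < n := by exact_mod_cast hn
    have h1 := Int.emod_nonneg (b - 1) hn'.ne'
    have h2 := Int.emod_lt_of_pos (b - 1) hn'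
    have h3 := Int.emod_add_mul_ediv (b - 1) n
    have hq : 0 ≤ (b - 1) / (n : ℤ) := Int.ediv_nonneg (by omega) hn'.le
    obtain ⟨l, hl⟩ := Int.eq_ofNat_of_zero_le hq
    set r := (b - 1) % (n : ℤ) with hr
    have hb' : b = (r + 1) + n * (l : ℤ) := by
      rw [hl] at h3
      linarith
    rw [hb', ← Gfin_sh_ee, Gfin_sh_mul hg, Gfin_sh_mul hg', ← map_sub]
    intro c hc
    rw [sh_apply]
    apply hbase (r + 1) (by omega) (by omega)
    have : (0 : ℤ) ≤ n * l := by positivity
    omega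
  have hsum : ∀ h : E k ≃ₗ[k] E k, h v = ∑ a ∈ v.support, v a • h (ee k a) := by
    intro h
    conv_lhs => rw [← Finsupp.sum_single v]
    rw [Finsupp.sum, map_sum]
    refine Finset.sum_congr rfl fun a _ => ?_
    rw [← map_smul]
    congr 1
    simp [ee]
  rw [hsum g, hsum g', ← Finset.sum_sub_distrib]
  refine Submodule.sum_mem _ fun a ha => ?_
  rw [← smul_sub]
  refine Submodule.smul_mem _ _ (hee a ?_)
  by_contra hcon
  exact (Finsupp.mem_support_iff.mp ha) (hv a (not_lt.mp hcon))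

/-- the nilpotent part of the elements `v_j` -/
noncomputable def Gfin_T (k : Type) [Field k] (n : ℕ) (j : ℕ) : E k →ₗ[k] E k :=
  Finsupp.lsum k fun b : ℤ =>
    if b % (n : ℤ) = 1 % (n : ℤ) then Finsupp.lsingle (b + 1 + j * n) else 0

theorem Gfin_T_single (j : ℕ) (b : ℤ) (c : k) : Gfin_T k n j (Finsupp.single b c) =
    if b % (n : ℤ) = 1 % (n : ℤ) then Finsupp.single (b + 1 + j * n) c else 0 := by
  rw [Gfin_T, Finsupp.lsum_single]
  split_ifs <;> simp

theorem Gfin_ne (hn : 2 ≤ n) {b : ℤ} (hb : b % (n : ℤ) = 1 % (n : ℤ)) (j : ℕ) :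
    ¬ (b + 1 + j * n) % (n : ℤ) = 1 % (n : ℤ) := by
  intro h
  have h1 : (b + 1 + j * n) % (n : ℤ) = (b + 1) % (n : ℤ) := Int.add_mul_emod_self_right _ _ _
  rw [h1] at h
  have h2 : (n : ℤ) ∣ (b + 1) - 1 := Int.ModEq.dvd (Eq.symm h)
  have h3 : (n : ℤ) ∣ b - 1 := Int.ModEq.dvd (Eq.symm hb)
  have h4 : (n : ℤ) ∣ 1 := by
    have := dvd_sub h2 h3
    have e : (b + 1 - 1) - (b - 1) = 1 := by ring
    rwa [e] at this
  have := Int.le_of_dvd one_pos h4
  omega

theorem Gfin_T_T (hn : 2 ≤ n) (j j' : ℕ) : (Gfin_T k n j) ∘ₗ (Gfin_T k n j') = 0 := by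
  refine Finsupp.lhom_ext fun b c => ?_
  rw [LinearMap.comp_apply, Gfin_T_single, LinearMap.zero_apply]
  split_ifs with h
  · rw [Gfin_T_single, if_neg (Gfin_ne hn h j')]
  · rw [map_zero]

theorem Gfin_T_T_apply (hn : 2 ≤ n) (j j' : ℕ) (v : E k) :
    Gfin_T k n j (Gfin_T k n j' v) = 0 := by
  have := congrArg (fun f => f v) (Gfin_T_T (k := k) hn j j')
  simpa using this

/-- the elements `v_j` -/
noncomputable def Gfin_v (k : Type) [Field k] (n : ℕ) (hn : 2 ≤ n) (j : ℕ) : E k ≃ₗ[k] E k :=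
  LinearEquiv.ofLinearMap (LinearMap.id + Gfin_T k n j) (LinearMap.id - Gfin_T k n j)
    (by
      refine LinearMap.ext fun v => ?_
      simp [Gfin_T_T_apply hn])
    (by
      refine LinearMap.ext fun v => ?_
      simp [Gfin_T_T_apply hn])

theorem Gfin_v_apply (hn : 2 ≤ n) (j : ℕ) (v : E k) :
    Gfin_v k n hn j v = v + Gfin_T k n j v := rfl

theorem Gfin_v_inv_apply (hn : 2 ≤ n) (j : ℕ) (v : E k) :
    (Gfin_v k n hn j)⁻¹ v = v - Gfin_T k n j v := rfl

theorem Gfin_v_mem (hn : 2 ≤ n) (j : ℕ) : Gfin_v k n hn j ∈ U k n := by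
  apply mem_U_of
  · intro v
    rw [Gfin_v_apply, Gfin_v_apply, map_add]
    congr 1
    have h : Gfin_T k n j ∘ₗ (sh k n : E k →ₗ[k] E k) = (sh k n : E k →ₗ[k] E k) ∘ₗ Gfin_T k n j := by
      refine Finsupp.lhom_ext fun b c => ?_
      have hs : ∀ (b : ℤ) (c : k), sh k n (Finsupp.single b c) = Finsupp.single (b + n) c := by
        intro b c
        have h1 : (Finsupp.single b c : E k) = c • ee k b := by simp [ee]
        rw [h1, map_smul, Gfin_sh_ee]
        simp [ee]
      change Gfin_T k n j (sh k n (Finsupp.single b c)) = sh k n (Gfin_T k n j (Finsupp.single b c))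
      rw [hs, Gfin_T_single, Gfin_T_single, Int.add_emod_right]
      split_ifs
      · rw [hs]
        congr 1
        ring
      · rw [map_zero]
    exact congrArg (fun f => f v) h
  · intro a
    rw [Gfin_v_apply, add_sub_cancel_left]
    rw [ee, Gfin_T_single]
    split_ifs
    · intro c hc
      rw [Finsupp.single_apply, if_neg]
      have : (0 : ℤ) ≤ j * n := by positivity
      omega
    · exact Submodule.zero_mem _

end aux

section
variable (k : Type) [Field k] [Finite k] (n : ℕ)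

/-- `U k n` modulo `Nc k n m` is finite: `g` is determined modulo `Nc` by `g e_a` modulo `M (m n)`, `0 < a ≤ n`. -/
theorem finite_Gm (hn : 1 ≤ n) (m : ℕ) : Finite (Gm k n m) := by
  have hinj : Function.Injective
      (fun q : Gm k n m => Gfin_Phi (n := n) m ((Quotient.out q : U k n) : E k ≃ₗ[k] E k)) := by
    intro q q' h
    have h1 : (QuotientGroup.mk (Quotient.out q) : Gm k n m) = QuotientGroup.mk (Quotient.out q') := by
      rw [QuotientGroup.eq]
      intro v hv
      have h2 := Gfin_diff hn m (Quotient.out q').2 (Quotient.out q).2 h.symm v hv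
      have h3 := U_sub_mem ((U k n).inv_mem (Quotient.out q).2) _ h2
      rw [map_sub] at h3
      have e2 : ((Quotient.out q : U k n) : E k ≃ₗ[k] E k)⁻¹
          (((Quotient.out q : U k n) : E k ≃ₗ[k] E k) v) = v :=
        ((Quotient.out q : U k n) : E k ≃ₗ[k] E k).symm_apply_apply v
      rw [e2] at h3
      exact h3
    rwa [QuotientGroup.out_eq', QuotientGroup.out_eq'] at h1
  exact Finite.of_injective _ hinj

/-- the order of `G_m` is at least `m`: the elements `v_j : e_{1+ln} ↦ e_{1+ln} + e_{2+(l+j)n}` (all other basis vectors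
fixed; inverse: minus sign), `0 ≤ j < m`, are different modulo `Nc k n m`: `v_j e_1 - v_{j'} e_1 ∉ M (m n)`. -/
theorem card_Gm (hn : 2 ≤ n) (m : ℕ) : m ≤ Nat.card (Gm k n m) := by
  have := finite_Gm k n (by omega) m
  have hinj : Function.Injective (fun j : Fin m =>
      (QuotientGroup.mk (⟨Gfin_v k n hn j, Gfin_v_mem hn j⟩ : U k n) : Gm k n m)) := by
    intro j j' h
    by_contra hne
    have h1 := QuotientGroup.eq.1 h
    have h2 := h1 (ee k 1) (ee_mem_M k one_pos)
    have h3 : ((((⟨Gfin_v k n hn j, Gfin_v_mem hn j⟩ : U k n)⁻¹ *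
        (⟨Gfin_v k n hn j', Gfin_v_mem hn j'⟩ : U k n) : U k n) : E k ≃ₗ[k] E k)) (ee k 1)
        = (Gfin_v k n hn j)⁻¹ (Gfin_v k n hn j' (ee k 1)) := rfl
    rw [h3, Gfin_v_apply, Gfin_v_inv_apply, map_add, Gfin_T_T_apply hn, add_zero] at h2
    have h4 := h2 (1 + 1 + (j : ℕ) * n) (by
      have hj := j.2
      have h5 : ((j : ℕ) : ℤ) + 1 ≤ m := by exact_mod_cast hj
      have h6 : (((j : ℕ) : ℤ) + 1) * n ≤ m * n :=
        mul_le_mul_of_nonneg_right h5 (by positivity)
      have h7 : (2 : ℤ) ≤ n := by exact_mod_cast hn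
      nlinarith)
    rw [ee, Gfin_T_single, Gfin_T_single, if_pos rfl, if_pos rfl] at h4
    simp only [Finsupp.sub_apply, Finsupp.add_apply, Finsupp.single_apply] at h4
    have hjn : (0 : ℤ) ≤ (j : ℕ) * n := by positivity
    have hne' : ¬ ((1 : ℤ) + 1 + ((j' : ℕ) : ℤ) * n = 1 + 1 + ((j : ℕ) : ℤ) * n) := by
      intro hc
      have h8 : ((j' : ℕ) : ℤ) * n = ((j : ℕ) : ℤ) * n := by linarith
      have h9 : ((j' : ℕ) : ℤ) = ((j : ℕ) : ℤ) :=
        mul_right_cancel₀ (by positivity) h8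
      exact hne (Fin.ext (by exact_mod_cast h9.symm))
    rw [if_neg (by omega), if_neg hne'] at h4
    norm_num at h4
  calc m = Nat.card (Fin m) := (Nat.card_fin m).symm
    _ ≤ _ := Nat.card_le_card_of_injective _ hinj

/-- the groups `H_s` are finite -/
theorem finite_Hs (hn : 1 ≤ n) (s : Fin n) : Finite (Hs k n s) := by
  have hinj : Function.Injective (fun (g : Hs k n s) (a c : Fin n) =>
      ((g : U k n) : E k ≃ₗ[k] E k) (ee k ((s : ℕ) + 1 + (a : ℕ) : ℤ)) ((s : ℕ) + 1 + (c : ℕ) : ℤ)) := by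
    intro g g' h
    apply Subtype.ext
    apply Subtype.ext
    apply U_ext (by omega) ((s : ℕ) : ℤ) (g : U k n).2 (g' : U k n).2
    intro l hl1 hl2
    have hup : ∀ (g : Hs k n s) (c : ℤ), (s : ℕ) + n < c →
        ((g : U k n) : E k ≃ₗ[k] E k) (ee k l) c = 0 := by
      intro g c hc
      have h1 : ((g : U k n) : E k ≃ₗ[k] E k) ∈ St k (((s : ℕ) : ℤ) + n) :=
        (U_St_add (g : U k n).2 _).2 g.2
      have h2 : (L k (((s : ℕ) : ℤ) + n)).map
          ((((g : U k n) : E k ≃ₗ[k] E k)) : E k →ₗ[k] E k) = L k (((s : ℕ) : ℤ) + n) := h1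
      have h3 : ee k l ∈ L k (((s : ℕ) : ℤ) + n) := ee_mem_L hl2
      have h4 : ((g : U k n) : E k ≃ₗ[k] E k) (ee k l) ∈ L k (((s : ℕ) : ℤ) + n) := by
        rw [← h2]
        exact Submodule.mem_map_of_mem h3
      exact h4 c hc
    ext c
    rcases lt_or_ge c l with h1 | h1
    · rw [Gfin_low (g : U k n).2 h1, Gfin_low (g' : U k n).2 h1]
    · rcases lt_or_ge (((s : ℕ) : ℤ) + n) c with h2 | h2
      · rw [hup g c h2, hup g' c h2]
      · have h3 := congrFun (congrFun h ⟨(l - s - 1).toNat, by omega⟩) ⟨(c - s - 1).toNat, by omega⟩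
        simp only at h3
        rw [Int.toNat_of_nonneg (by omega), Int.toNat_of_nonneg (by omega)] at h3
        have e1 : ((s : ℕ) : ℤ) + 1 + (l - (s : ℕ) - 1) = l := by ring
        have e2 : ((s : ℕ) : ℤ) + 1 + (c - (s : ℕ) - 1) = c := by ring
        rwa [e1, e2] at h3
  exact Finite.of_injective _ hinj

theorem card_Hm_le (hn : 1 ≤ n) (m : ℕ) (s : Fin n) :
    Nat.card (Hm k n m s) ≤ Nat.card (Hs k n s) := by
  have := finite_Hs k n hn s
  have hsurj : Function.Surjective (fun g : Hs k n s =>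
      (⟨QuotientGroup.mk' (Nc k n m) g, Subgroup.mem_map_of_mem _ g.2⟩ : Hm k n m s)) := by
    rintro ⟨x, hx⟩
    obtain ⟨g, hg, rfl⟩ := hx
    exact ⟨⟨g, hg⟩, rfl⟩
  exact Nat.card_le_card_of_surjective _ hsurj

end

/-- generation of `U` by the `H_s` from the vanishing in degree `0` -/
theorem gen_of_van {S : Type} [Fintype S] [Nonempty S] {G : Type} [Group G] (H : S → Subgroup G)
    (h : Van H 0) : ⨆ s, H s = ⊤ := by
  set K : Subgroup G := ⨆ s, H s with hK
  have hHK : ∀ s, H s ≤ K := fun s => le_iSup H s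
  obtain ⟨b, hb, hfb⟩ := h (fun _ x => if x ∈ K then 1 else 0) (by
    intro J _ hJ x y hy
    obtain ⟨s, rfl⟩ := Finset.card_eq_one.1 hJ
    have h1 : y ∈ H s := by
      have h2 : y ∈ ⨅ t ∈ (∅ ∪ {s} : Finset S), H t := hy
      simp only [Finset.empty_union, Finset.mem_singleton, iInf_iInf_eq_left] at h2
      exact h2
    have h3 : x * y ∈ K ↔ x ∈ K := K.mul_mem_cancel_right (hHK s h1)
    simp only [h3]) (by
    intro J hJ x
    obtain ⟨s, t, _, rfl⟩ := Finset.card_eq_two.1 hJ
    simp only [dl, Finset.sum_const, hJ]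
    split_ifs
    · decide
    · simp)
  obtain ⟨s⟩ := (inferInstance : Nonempty S)
  have h1 : ∀ x : G, (if x ∈ K then (1 : ZMod 2) else 0) = b ∅ x := by
    intro x
    have := hfb {s} (Finset.card_singleton s) x
    simpa [dl] using this
  have h2 : ∀ x : G, b ∅ x = b ∅ 1 := by
    intro x
    have := hb ∅ (Finset.disjoint_empty_left _) Finset.card_empty 1 x (by
      simp [HH])
    rwa [one_mul] at this
  rw [eq_top_iff]
  intro x _
  by_contra hx
  have h3 := h1 x
  rw [if_neg hx, h2 x, ← h1 1, if_pos K.one_mem] at h3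
  exact zero_ne_one h3

end Vale.P067
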