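import Mathlib

/-!
# P067: the definitions of the problem file

Finite simplicial complexes, the sets `X(i)` of faces with `i+1` vertices, the weights `w_i`, the norm, the coboundary
over `F_2`, the coboundaries `B^i`, the distance, `ε`-coboundary expanders, purity, connectedness, degree.
-/

namespace Vale.P067

open scoped Classical

/-- A finite simplicial complex with vertices in `V`, given by the finite set of its nonempty faces. -/
structure FinCx (V : Type) where
  /-- the (nonempty) faces -/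
  faces : Finset (Finset V)
  nonempty_of_mem : ∀ σ ∈ faces, σ.Nonempty
  down_closed : ∀ σ ∈ faces, ∀ τ : Finset V, τ ⊆ σ → τ.Nonempty → τ ∈ faces

namespace FinCx

variable {V : Type} (X : FinCx V)

/-- `X(i)`: the faces with `i + 1` vertices. -/
noncomputable def cells (i : ℕ) : Finset (Finset V) :=
  X.faces.filter fun σ => σ.card = i + 1

/-- `X` is pure of dimension `d`: there is a `d`-face and every face lies in a `d`-face. -/
def Pure (d : ℕ) : Prop :=
  (X.cells d).Nonempty ∧ ∀ σ ∈ X.faces, ∃ τ ∈ X.cells d, σ ⊆ τ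

/-- `X` is connected: any two vertices of `X` are joined by a path of edges. -/
def Connected : Prop :=
  ∀ u v : V, {u} ∈ X.faces → {v} ∈ X.faces →
    Relation.ReflTransGen (fun a b : V => ({a, b} : Finset V) ∈ X.faces) u v

/-- every vertex lies in at most `D` of the `d`-faces. -/
def DegreeLE (d D : ℕ) : Prop :=
  ∀ v : V, ((X.cells d).filter fun τ => v ∈ τ).card ≤ D

/-- the weight `w_i(σ)` of a face `σ ∈ X(i)` of a pure `d`-dimensional complex:
`#{τ ∈ X(d) : σ ⊆ τ} / (binom(d+1, i+1) |X(d)|)`. -/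
noncomputable def weight (d i : ℕ) (σ : Finset V) : ℝ :=
  (((X.cells d).filter fun τ => σ ⊆ τ).card : ℝ) /
    (((d + 1).choose (i + 1) : ℝ) * ((X.cells d).card : ℝ))

/-- `C^i(X)`: the functions `X(i) → F_2`. -/
abbrev Cochain (i : ℕ) := {σ : Finset V // σ ∈ X.cells i} → ZMod 2

/-- `‖f‖_i`: the sum of the weights of the `i`-faces on which `f` does not vanish. -/
noncomputable def nrm (d : ℕ) {i : ℕ} (f : X.Cochain i) : ℝ :=
  ∑ σ : {σ : Finset V // σ ∈ X.cells i}, if f σ ≠ 0 then X.weight d i σ.1 else 0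

/-- the coboundary `(δ_i f)(τ) = ∑_{σ ⊂ τ, |σ| = i+1} f(σ)`. -/
noncomputable def cobd {i : ℕ} (f : X.Cochain i) : X.Cochain (i + 1) :=
  fun τ => ∑ σ : {σ : Finset V // σ ∈ X.cells i}, if σ.1 ⊆ τ.1 then f σ else 0

/-- `B^i`: the image of `δ_{i-1}` for `i ≥ 1`, and the constant functions for `i = 0`. -/
def Bdry : (i : ℕ) → Set (X.Cochain i)
  | 0 => {f | ∃ c : ZMod 2, ∀ σ, f σ = c}
  | _ + 1 => Set.range X.cobd

/-- `dist_i(f, A)`: the smallest norm `‖f - a‖_i`, `a ∈ A`. -/
noncomputable def dist (d : ℕ) {i : ℕ} (f : X.Cochain i) (A : Set (X.Cochain i)) : ℝ :=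
  sInf ((fun a => X.nrm d (f - a)) '' A)

/-- `X` (pure of dimension `d`) is an `ε`-coboundary expander:
`‖δ_i f‖_{i+1} ≥ ε dist_i(f, B^i)` for all `0 ≤ i < d` and all `f ∈ C^i(X)`. -/
def CoboundaryExpander (d : ℕ) (ε : ℝ) : Prop :=
  ∀ i < d, ∀ f : X.Cochain i, ε * X.dist d f (X.Bdry i) ≤ X.nrm d (X.cobd f)

end FinCx

/-- the statement of Q1 in dimension `d`: bounded degree `ε`-coboundary expanders of dimension `d`, of unbounded size -/
def BoundedDegreeCoboundaryExpanders (d : ℕ) : Prop :=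
  ∃ (D : ℕ) (ε : ℝ), 0 < ε ∧ ∃ (V : ℕ → Type) (X : ∀ m, FinCx (V m)),
    (∀ m, (X m).Pure d ∧ (X m).Connected ∧ (X m).DegreeLE d D ∧ (X m).CoboundaryExpander d ε) ∧
    Filter.Tendsto (fun m => ((X m).cells 0).card) Filter.atTop Filter.atTop

end Vale.P067
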