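import Mathlib
import Vale.Agent.Lib.P067.E.Cx

/-!
# P067 part E: an `ε`-coboundary expander (pure, `d ≥ 1`) is connected

Let `{u} ∈ X`. Let `f ∈ C^0`, `f {v} = 1` if there is a path from `u` to `v`, else `0` (`f σ = if ∃ v, σ = {v} ∧ path u v then 1 else 0`).
For an edge `τ = {a, b}` (`|τ| = 2`) the cells `σ ∈ X(0)`, `σ ⊆ τ`, are `{a}`, `{b}`, and `f {a} = f {b}` (the relation is
symmetric), so `cobd f = 0`, `nrm (cobd f) = 0`. Hence `dist f (Bdry 0) ≤ 0`. The set of the norms `‖f - a‖`, `a ∈ Bdry 0`, is finite and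
nonempty, so its infimum is attained: there is a constant `c` with `‖f - c‖ ≤ 0`. All weights of vertices are positive
(purity), so `f = c`; `f {u} = 1`, so `c = 1` and every vertex `v` is joined to `u`.
-/

namespace Vale.P067

open scoped Classical

namespace FinCx

variable {V : Type} (X : FinCx V)

private theorem conn_weight_pos (d : ℕ) (hp : X.Pure d) (i : ℕ) (hi : i ≤ d) (σ : Finset V)
    (hσ : σ ∈ X.cells i) : 0 < X.weight d i σ := by
  have hσ' : σ ∈ X.faces := (Finset.mem_filter.1 hσ).1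
  obtain ⟨τ, hτ, hστ⟩ := hp.2 σ hσ'
  unfold weight
  apply div_pos
  · have : 0 < ((X.cells d).filter fun τ => σ ⊆ τ).card :=
      Finset.card_pos.2 ⟨τ, Finset.mem_filter.2 ⟨hτ, hστ⟩⟩
    exact_mod_cast this
  · have h1 : 0 < (d + 1).choose (i + 1) := Nat.choose_pos (by omega)
    have h2 : 0 < (X.cells d).card := Finset.card_pos.2 hp.1
    have h3 : (0 : ℝ) < ((d + 1).choose (i + 1) : ℝ) := by exact_mod_cast h1
    have h4 : (0 : ℝ) < ((X.cells d).card : ℝ) := by exact_mod_cast h2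
    exact mul_pos h3 h4

private theorem conn_nrm_zero (d : ℕ) (hp : X.Pure d) (i : ℕ) (hi : i ≤ d) (f : X.Cochain i)
    (hf : X.nrm d f ≤ 0) : f = 0 := by
  have hnn : ∀ σ ∈ (Finset.univ : Finset {σ : Finset V // σ ∈ X.cells i}),
      0 ≤ (if f σ ≠ 0 then X.weight d i σ.1 else 0) := by
    intro σ _
    split_ifs
    · exact (conn_weight_pos X d hp i hi σ.1 σ.2).le
    · exact le_rfl
  have h0 : X.nrm d f = 0 := le_antisymm hf (Finset.sum_nonneg hnn)
  unfold nrm at h0
  rw [Finset.sum_eq_zero_iff_of_nonneg hnn] at h0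
  funext σ
  by_contra hne
  have h1 := h0 σ (Finset.mem_univ _)
  have hne' : f σ ≠ 0 := hne
  rw [if_pos hne'] at h1
  exact absurd h1 (conn_weight_pos X d hp i hi σ.1 σ.2).ne'

end FinCx

theorem FinCx.connected_of_expander {V : Type} (X : FinCx V) (d : ℕ) (hd : 1 ≤ d)
    (hp : X.Pure d) (ε : ℝ) (hε : 0 < ε) (h : X.CoboundaryExpander d ε) : X.Connected := by
  intro u v hu hv
  by_contra hnot
  set P : V → Prop := fun w =>
    Relation.ReflTransGen (fun a b : V => ({a, b} : Finset V) ∈ X.faces) u w with hP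
  have hmem : ∀ w : V, {w} ∈ X.faces → ({w} : Finset V) ∈ X.cells 0 := by
    intro w hw
    exact Finset.mem_filter.2 ⟨hw, by simp⟩
  let f : X.Cochain 0 := fun σ => if ∃ w, σ.1 = {w} ∧ P w then 1 else 0
  have hf : ∀ (w : V) (hw : ({w} : Finset V) ∈ X.cells 0), f ⟨{w}, hw⟩ = if P w then 1 else 0 := by
    intro w hw
    change (if ∃ w', ({w} : Finset V) = {w'} ∧ P w' then (1 : ZMod 2) else 0) = _
    congr 1
    apply propext
    constructor
    · rintro ⟨w', h1, h2⟩
      rw [Finset.singleton_inj.1 h1]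
      exact h2
    · intro h1
      exact ⟨w, rfl, h1⟩
  have hcob : X.cobd f = 0 := by
    funext τ
    obtain ⟨hτ1, hτ2⟩ := Finset.mem_filter.1 τ.2
    obtain ⟨a, b, hab, hτ⟩ := Finset.card_eq_two.1 hτ2
    have hface : ({a, b} : Finset V) ∈ X.faces := by rw [← hτ]; exact hτ1
    have ha : ({a} : Finset V) ∈ X.faces :=
      X.down_closed _ hface _ (by simp) (Finset.singleton_nonempty a)
    have hb : ({b} : Finset V) ∈ X.faces :=
      X.down_closed _ hface _ (by simp) (Finset.singleton_nonempty b)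
    have hne : (⟨{a}, hmem a ha⟩ : {σ : Finset V // σ ∈ X.cells 0}) ≠ ⟨{b}, hmem b hb⟩ := by
      intro h1
      exact hab (Finset.singleton_inj.1 (congrArg Subtype.val h1))
    change (∑ σ : {σ : Finset V // σ ∈ X.cells 0}, if σ.1 ⊆ τ.1 then f σ else 0) = 0
    rw [Fintype.sum_eq_add ⟨{a}, hmem a ha⟩ ⟨{b}, hmem b hb⟩ hne]
    · have h1 : ({a} : Finset V) ⊆ τ.1 := by rw [hτ]; simp
      have h2 : ({b} : Finset V) ⊆ τ.1 := by rw [hτ]; simp
      rw [if_pos h1, if_pos h2, hf, hf]
      have h3 : P a ↔ P b := by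
        constructor
        · intro h4
          exact Relation.ReflTransGen.tail h4 hface
        · intro h4
          refine Relation.ReflTransGen.tail h4 ?_
          rw [Finset.pair_comm]
          exact hface
      by_cases h4 : P a
      · rw [if_pos h4, if_pos (h3.1 h4)]
        decide
      · rw [if_neg h4, if_neg (fun h5 => h4 (h3.2 h5))]
        simp
    · rintro σ ⟨h1, h2⟩
      apply if_neg
      intro h3
      obtain ⟨w, hw⟩ := Finset.card_eq_one.1 (Finset.mem_filter.1 σ.2).2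
      rw [hw, hτ, Finset.singleton_subset_iff, Finset.mem_insert, Finset.mem_singleton] at h3
      rcases h3 with rfl | rfl
      · exact h1 (Subtype.ext hw)
      · exact h2 (Subtype.ext hw)
  have hn : X.nrm d (X.cobd f) = 0 := by
    rw [hcob]
    unfold FinCx.nrm
    simp
  have hdist : X.dist d f (X.Bdry 0) ≤ 0 := by
    have h1 := h 0 (by omega) f
    rw [hn] at h1
    by_contra h2
    push Not at h2
    exact absurd h1 (not_le.2 (mul_pos hε h2))
  have hfin : ((fun a => X.nrm d (f - a)) '' (X.Bdry 0)).Finite := (Set.toFinite _).image _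
  have hnon : ((fun a => X.nrm d (f - a)) '' (X.Bdry 0)).Nonempty :=
    ⟨_, ⟨fun _ => 0, ⟨0, fun _ => rfl⟩, rfl⟩⟩
  obtain ⟨a, ⟨c, hc⟩, ha⟩ := hnon.csInf_mem hfin
  have h1 : X.nrm d (f - a) ≤ 0 := by
    have h2 : X.nrm d (f - a) = X.dist d f (X.Bdry 0) := ha
    rw [h2]
    exact hdist
  have h2 := FinCx.conn_nrm_zero X d hp 0 (by omega) (f - a) h1
  have h3 : ∀ σ, f σ = c := by
    intro σ
    have h4 := congrFun h2 σ
    rw [Pi.sub_apply, Pi.zero_apply, hc σ, sub_eq_zero] at h4
    exact h4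
  have h4 := h3 ⟨{u}, hmem u hu⟩
  have h5 := h3 ⟨{v}, hmem v hv⟩
  rw [hf] at h4 h5
  rw [if_pos (show P u from Relation.ReflTransGen.refl)] at h4
  rw [if_neg (show ¬ P v from hnot)] at h5
  rw [← h5] at h4
  exact absurd h4 (by decide)

end Vale.P067
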