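import Mathlib
import Vale.Agent.Lib.P067.Defs
import Vale.Agent.Lib.P067.E.Cx

/-!
# P067 part E: the coset complex as a finite simplicial complex
-/

namespace Vale.P067

open scoped Classical

section
variable {S : Type} [Fintype S] {G : Type} [Group G]

/-- vertices of the coset complex -/
abbrev CV (H : S → Subgroup G) := Σ s : S, G ⧸ H s

/-- the face of type `J` at `x` -/
noncomputable def fc (H : S → Subgroup G) (J : Finset S) (x : G) : Finset (CV H) :=
  J.image fun s => ⟨s, (x : G ⧸ H s)⟩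

variable (H : S → Subgroup G)

theorem mem_HH_e {J : Finset S} {g : G} : g ∈ HH H J ↔ ∀ s ∈ J, g ∈ H s := by
  simp [HH, Subgroup.mem_iInf]

theorem mem_fc {J : Finset S} {x : G} {v : CV H} :
    v ∈ fc H J x ↔ v.1 ∈ J ∧ v = ⟨v.1, (x : G ⧸ H v.1)⟩ := by
  unfold fc
  rw [Finset.mem_image]
  constructor
  · rintro ⟨s, hs, rfl⟩
    exact ⟨hs, rfl⟩
  · rintro ⟨h1, h2⟩
    exact ⟨v.1, h1, h2.symm⟩

theorem mk_mem_fc {J : Finset S} {x y : G} {s : S} :
    (⟨s, (y : G ⧸ H s)⟩ : CV H) ∈ fc H J x ↔ s ∈ J ∧ y⁻¹ * x ∈ H s := by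
  rw [mem_fc]
  constructor
  · rintro ⟨h1, h2⟩
    refine ⟨h1, ?_⟩
    have h3 : ((y : G ⧸ H s)) = (x : G ⧸ H s) := by
      have := (Sigma.mk.inj_iff.mp h2).2
      exact eq_of_heq this
    exact QuotientGroup.eq.mp h3
  · rintro ⟨h1, h2⟩
    refine ⟨h1, ?_⟩
    have h3 : ((y : G ⧸ H s)) = (x : G ⧸ H s) := QuotientGroup.eq.mpr h2
    simp only [h3]

theorem fc_card (J : Finset S) (x : G) : (fc H J x).card = J.card := by
  unfold fc
  apply Finset.card_image_of_injective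
  intro s t h
  exact (Sigma.mk.inj_iff.mp h).1

theorem fc_subset_iff (J J' : Finset S) (x y : G) :
    fc H J x ⊆ fc H J' y ↔ J ⊆ J' ∧ x⁻¹ * y ∈ HH H J := by
  rw [mem_HH_e]
  constructor
  · intro h
    constructor
    · intro s hs
      have h1 : (⟨s, (x : G ⧸ H s)⟩ : CV H) ∈ fc H J x := by
        rw [mk_mem_fc]; exact ⟨hs, by simp⟩
      exact ((mk_mem_fc H).mp (h h1)).1
    · intro s hs
      have h1 : (⟨s, (x : G ⧸ H s)⟩ : CV H) ∈ fc H J x := by
        rw [mk_mem_fc]; exact ⟨hs, by simp⟩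
      exact ((mk_mem_fc H).mp (h h1)).2
  · rintro ⟨h1, h2⟩ v hv
    rw [mem_fc] at hv
    obtain ⟨h3, h4⟩ := hv
    rw [h4, mk_mem_fc]
    exact ⟨h1 h3, h2 _ h3⟩

theorem fc_eq_iff (J J' : Finset S) (x y : G) :
    fc H J x = fc H J' y ↔ J = J' ∧ x⁻¹ * y ∈ HH H J := by
  constructor
  · intro h
    have h1 := (fc_subset_iff H J J' x y).mp h.subset
    have h2 := (fc_subset_iff H J' J y x).mp h.symm.subset
    exact ⟨Finset.Subset.antisymm h1.1 h2.1, h1.2⟩
  · rintro ⟨rfl, h⟩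
    apply Finset.Subset.antisymm
    · rw [fc_subset_iff]
      exact ⟨Finset.Subset.refl _, h⟩
    · rw [fc_subset_iff]
      refine ⟨Finset.Subset.refl _, ?_⟩
      have := (HH H J).inv_mem h
      simpa using this

theorem subset_fc {J : Finset S} {x : G} {σ : Finset (CV H)} (h : σ ⊆ fc H J x) :
    ∃ J' ⊆ J, σ = fc H J' x := by
  refine ⟨σ.image Sigma.fst, ?_, ?_⟩
  · intro s hs
    rw [Finset.mem_image] at hs
    obtain ⟨v, hv, rfl⟩ := hs
    exact ((mem_fc H).mp (h hv)).1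
  · ext v
    rw [mem_fc, Finset.mem_image]
    constructor
    · intro hv
      exact ⟨⟨v, hv, rfl⟩, ((mem_fc H).mp (h hv)).2⟩
    · rintro ⟨⟨w, hw, hwv⟩, hv⟩
      have h1 := ((mem_fc H).mp (h hw)).2
      rw [hv]
      rw [h1] at hw
      rw [← hwv]
      exact hw

theorem fc_mul {J : Finset S} {x h : G} (hh : h ∈ HH H J) : fc H J (x * h) = fc H J x := by
  symm
  rw [fc_eq_iff]
  refine ⟨rfl, ?_⟩
  simpa using hh

/-- the `d`-skeleton of the coset complex -/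
noncomputable def cosCx [Finite G] (d : ℕ) : FinCx (CV H) where
  faces := (Set.toFinite {σ : Finset (CV H) | ∃ (J : Finset S) (x : G),
    J.Nonempty ∧ J.card ≤ d + 1 ∧ σ = fc H J x}).toFinset
  nonempty_of_mem := by
    intro σ hσ
    rw [Set.Finite.mem_toFinset] at hσ
    obtain ⟨J, x, hJ, _, rfl⟩ := hσ
    rw [← Finset.card_pos, fc_card]
    exact Finset.card_pos.mpr hJ
  down_closed := by
    intro σ hσ τ hτ hn
    rw [Set.Finite.mem_toFinset] at hσ ⊢
    obtain ⟨J, x, hJ, hc, rfl⟩ := hσ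
    obtain ⟨J', hJ', rfl⟩ := subset_fc H hτ
    refine ⟨J', x, ?_, (Finset.card_le_card hJ').trans hc, rfl⟩
    rw [← Finset.card_pos, fc_card] at hn
    exact Finset.card_pos.mp hn

variable [Finite G]

theorem mem_faces (d : ℕ) (σ : Finset (CV H)) : σ ∈ (cosCx H d).faces ↔
    ∃ (J : Finset S) (x : G), J.Nonempty ∧ J.card ≤ d + 1 ∧ σ = fc H J x := by
  unfold cosCx
  simp only [Set.Finite.mem_toFinset, Set.mem_setOf_eq]

theorem mem_cells (d i : ℕ) (hi : i ≤ d) (σ : Finset (CV H)) : σ ∈ (cosCx H d).cells i ↔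
    ∃ (J : Finset S) (x : G), J.card = i + 1 ∧ σ = fc H J x := by
  unfold FinCx.cells
  rw [Finset.mem_filter, mem_faces]
  constructor
  · rintro ⟨⟨J, x, _, _, rfl⟩, h⟩
    exact ⟨J, x, by rwa [fc_card] at h, rfl⟩
  · rintro ⟨J, x, h, rfl⟩
    refine ⟨⟨J, x, ?_, by omega, rfl⟩, by rw [fc_card, h]⟩
    rw [← Finset.card_pos]; omega

theorem cos_pure (d : ℕ) (hd : d + 1 ≤ Fintype.card S) : (cosCx H d).Pure d := by
  constructor
  · obtain ⟨J, _, hJ⟩ := Finset.exists_subset_card_eq (s := (Finset.univ : Finset S)) (n := d + 1)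
      (by simpa using hd)
    exact ⟨fc H J 1, (mem_cells H d d le_rfl _).mpr ⟨J, 1, hJ, rfl⟩⟩
  · intro σ hσ
    rw [mem_faces] at hσ
    obtain ⟨J, x, _, hc, rfl⟩ := hσ
    obtain ⟨J', hJ1, _, hJ2⟩ := Finset.exists_subsuperset_card_eq (Finset.subset_univ J)
      hc (by simpa using hd)
    refine ⟨fc H J' x, (mem_cells H d d le_rfl _).mpr ⟨J', x, hJ2, rfl⟩, ?_⟩
    rw [fc_subset_iff]
    exact ⟨hJ1, by simp⟩

end

end Vale.P067
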