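import Mathlib
import Vale.Agent.Lib.P067.E.Cos

/-!
# P067 part E: counting faces of the coset complex; bounds for the weights of the problem file

`n = Fintype.card S`. Every `d`-face is `fc H J' y`. By `fc_subset_iff`, `fc H J x ⊆ fc H J' y` iff `J ⊆ J'` and
`h = x⁻¹ y ∈ HH H J`; so the `d`-faces above `fc H J x` are the `fc H J' (x h)`, `h ∈ HH H J`, `J ⊆ J'`, `|J'| = d + 1`.
* `Nfib_fc`: `(J', y)` with `fc H J' y = fc H J x` iff `J' = J` and `x⁻¹ y ∈ HH H J`.
* `up_le`: image of `Finset S × HH H J` (at most `2 ^ n` sets).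
* `le_up`: fix `J' ⊇ J` with `d + 1` elements; `h ↦ fc H J' (x h)`, `h ∈ HH H J`; every fibre is a coset of
  `HH H J' ≤ H s`, `s ∈ J'`, hence has at most `Q` elements.
* `top_le`, `le_top'`: the same with all of `G` (`J = ∅`).
* `weight_lower`: `up ≥ |HH J| / Q`, `binom ≤ 2 ^ (d + 1) ≤ 2 ^ n`, `top ≤ 2 ^ n |G|`.
* `weight_upper`: `up ≤ 2 ^ n |HH J|`, `binom ≥ 1`, `top ≥ |G| / Q`.
-/

namespace Vale.P067

open scoped Classical

section
variable {S : Type} [Fintype S] {G : Type} [Group G] [Finite G] (H : S → Subgroup G)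

theorem HH_le {J : Finset S} {s : S} (hs : s ∈ J) : HH H J ≤ H s :=
  fun _ hg => (mem_HH_e H).1 hg s hs

theorem card_HH_le {J : Finset S} {s : S} (hs : s ∈ J) :
    Nat.card (HH H J) ≤ Nat.card (H s) :=
  Nat.card_le_card_of_injective (Subgroup.inclusion (HH_le H hs)) (Subgroup.inclusion_injective _)

/-- fibres of `g ↦ fc H J g` -/
theorem fib_le [Fintype G] (J : Finset S) (τ : Finset (CV H)) :
    (Finset.univ.filter fun g : G => fc H J g = τ).card ≤ Nat.card (HH H J) := by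
  rcases (Finset.univ.filter fun g : G => fc H J g = τ).eq_empty_or_nonempty with h0 | ⟨g0, hg0⟩
  · rw [h0]
    exact Nat.zero_le _
  · have h1 : fc H J g0 = τ := (Finset.mem_filter.1 hg0).2
    have hF : Fintype (HH H J) := Fintype.ofFinite _
    rw [Nat.card_eq_fintype_card, ← Finset.card_univ]
    refine Finset.card_le_card_of_injOn
      (fun g => if hg : g0⁻¹ * g ∈ HH H J then (⟨g0⁻¹ * g, hg⟩ : HH H J) else 1)
      (fun _ _ => Finset.mem_coe.2 (Finset.mem_univ _)) ?_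
    intro g hg g' hg' heq
    have e : ∀ g, g ∈ (Finset.univ.filter fun g : G => fc H J g = τ) → g0⁻¹ * g ∈ HH H J := by
      intro g hg
      have h2 : fc H J g = τ := (Finset.mem_filter.1 hg).2
      exact ((fc_eq_iff H J J g0 g).1 (h1.trans h2.symm)).2
    have k1 := e g (by simpa using hg)
    have k2 := e g' (by simpa using hg')
    simp only [dif_pos k1, dif_pos k2, Subtype.mk.injEq] at heq
    exact mul_left_cancel heq

/-- number of pairs `(J, y)` with `|J| = i + 1` and `fc H J y = σ` -/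
noncomputable def Nfib (i : ℕ) (σ : Finset (CV H)) : ℕ :=
  Nat.card {p : Finset S × G // p.1.card = i + 1 ∧ fc H p.1 p.2 = σ}

theorem Nfib_fc (i : ℕ) (J : Finset S) (x : G) (hJ : J.card = i + 1) :
    Nfib H i (fc H J x) = Nat.card (HH H J) := by
  unfold Nfib
  refine Nat.card_congr ?_
  have key : ∀ p : Finset S × G, fc H p.1 p.2 = fc H J x → p.1 = J ∧ x⁻¹ * p.2 ∈ HH H J := by
    intro p hp
    obtain ⟨h1, h2⟩ := (fc_eq_iff H J p.1 x p.2).1 hp.symm
    exact ⟨h1.symm, h2⟩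
  exact
    { toFun := fun p => ⟨x⁻¹ * p.1.2, (key p.1 p.2.2).2⟩
      invFun := fun h => ⟨(J, x * h.1), hJ, fc_mul H h.2⟩
      left_inv := by
        rintro ⟨⟨J', y⟩, h1, h2⟩
        have h3 := (key (J', y) h2).1
        simp only at h3
        subst h3
        simp
      right_inv := by
        rintro ⟨h, hh⟩
        simp }

/-- upper bound for the number of `d`-faces above a face -/
theorem up_le (d : ℕ) (J : Finset S) (x : G) (hJ : J.Nonempty) :
    (((cosCx H d).cells d).filter fun τ => fc H J x ⊆ τ).card ≤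
      2 ^ Fintype.card S * Nat.card (HH H J) := by
  have hF : Fintype (HH H J) := Fintype.ofFinite _
  have hsub : (((cosCx H d).cells d).filter fun τ => fc H J x ⊆ τ) ⊆
      (Finset.univ : Finset (Finset S × HH H J)).image (fun p => fc H p.1 (x * p.2.1)) := by
    intro τ hτ
    rw [Finset.mem_filter, mem_cells H d d le_rfl] at hτ
    obtain ⟨⟨J', y, _, rfl⟩, h2⟩ := hτ
    obtain ⟨_, h4⟩ := (fc_subset_iff H J J' x y).1 h2
    rw [Finset.mem_image]
    refine ⟨(J', ⟨x⁻¹ * y, h4⟩), Finset.mem_univ _, ?_⟩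
    simp
  refine (Finset.card_le_card hsub).trans (Finset.card_image_le.trans ?_)
  rw [Finset.card_univ, Fintype.card_prod, Fintype.card_finset, Nat.card_eq_fintype_card]

/-- lower bound for the number of `d`-faces above a face -/
theorem le_up (d : ℕ) (hd : d + 1 ≤ Fintype.card S) (Q : ℝ)
    (hQ : ∀ s, (Nat.card (H s) : ℝ) ≤ Q) (J : Finset S) (x : G) (hJ : J.Nonempty)
    (hJd : J.card ≤ d + 1) :
    (Nat.card (HH H J) : ℝ) ≤
      Q * (((cosCx H d).cells d).filter fun τ => fc H J x ⊆ τ).card := by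
  have hG : Fintype G := Fintype.ofFinite _
  have hF : Fintype (HH H J) := Fintype.ofFinite _
  obtain ⟨J', hJJ', hJ'⟩ := Finset.exists_superset_card_eq hJd hd
  obtain ⟨s, hs⟩ := hJ
  have hmaps : ∀ h ∈ (Finset.univ : Finset (HH H J)), fc H J' (x * h.1) ∈
      (((cosCx H d).cells d).filter fun τ => fc H J x ⊆ τ) := by
    intro h _
    rw [Finset.mem_filter, mem_cells H d d le_rfl]
    refine ⟨⟨J', x * h.1, hJ', rfl⟩, (fc_subset_iff H J J' x _).2 ⟨hJJ', ?_⟩⟩
    rw [inv_mul_cancel_left]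
    exact h.2
  have hfib : ∀ τ ∈ (((cosCx H d).cells d).filter fun τ => fc H J x ⊆ τ),
      ((Finset.univ : Finset (HH H J)).filter fun h => fc H J' (x * h.1) = τ).card ≤
        Nat.card (HH H J') := by
    intro τ _
    refine le_trans ?_ (fib_le H J' τ)
    refine Finset.card_le_card_of_injOn (fun h => x * h.1) ?_ ?_
    · intro h hh
      have := (Finset.mem_filter.1 (Finset.mem_coe.1 hh)).2
      exact Finset.mem_coe.2 (Finset.mem_filter.2 ⟨Finset.mem_univ _, this⟩)
    · intro h _ h' _ heq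
      exact Subtype.ext (mul_left_cancel heq)
  have h1 := Finset.card_le_mul_card_image_of_maps_to hmaps _ hfib
  rw [Finset.card_univ, ← Nat.card_eq_fintype_card] at h1
  have h2 : (Nat.card (HH H J') : ℝ) ≤ Q :=
    le_trans (by exact_mod_cast card_HH_le H (hJJ' hs)) (hQ s)
  calc (Nat.card (HH H J) : ℝ) ≤ (Nat.card (HH H J') : ℝ) *
        ((((cosCx H d).cells d).filter fun τ => fc H J x ⊆ τ).card : ℝ) := by exact_mod_cast h1
    _ ≤ _ := by gcongr

theorem top_le (d : ℕ) : ((cosCx H d).cells d).card ≤ 2 ^ Fintype.card S * Nat.card G := by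
  have hG : Fintype G := Fintype.ofFinite _
  have hsub : ((cosCx H d).cells d) ⊆
      (Finset.univ : Finset (Finset S × G)).image (fun p => fc H p.1 p.2) := by
    intro τ hτ
    rw [mem_cells H d d le_rfl] at hτ
    obtain ⟨J', y, _, rfl⟩ := hτ
    exact Finset.mem_image.2 ⟨(J', y), Finset.mem_univ _, rfl⟩
  refine (Finset.card_le_card hsub).trans (Finset.card_image_le.trans ?_)
  rw [Finset.card_univ, Fintype.card_prod, Fintype.card_finset, Nat.card_eq_fintype_card]

theorem le_top' (d : ℕ) (hd : d + 1 ≤ Fintype.card S) (Q : ℝ)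
    (hQ : ∀ s, (Nat.card (H s) : ℝ) ≤ Q) :
    (Nat.card G : ℝ) ≤ Q * ((cosCx H d).cells d).card := by
  have hG : Fintype G := Fintype.ofFinite _
  obtain ⟨J', _, hJ'⟩ := Finset.exists_superset_card_eq
    (s := (∅ : Finset S)) (n := d + 1) (by simp) hd
  obtain ⟨s, hs⟩ : J'.Nonempty := by
    rw [← Finset.card_pos]
    omega
  have hmaps : ∀ g ∈ (Finset.univ : Finset G), fc H J' g ∈ ((cosCx H d).cells d) := by
    intro g _
    rw [mem_cells H d d le_rfl]
    exact ⟨J', g, hJ', rfl⟩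
  have h1 := Finset.card_le_mul_card_image_of_maps_to hmaps _ (fun τ _ => fib_le H J' τ)
  rw [Finset.card_univ, ← Nat.card_eq_fintype_card] at h1
  have h2 : (Nat.card (HH H J') : ℝ) ≤ Q :=
    le_trans (by exact_mod_cast card_HH_le H hs) (hQ s)
  calc (Nat.card G : ℝ) ≤ (Nat.card (HH H J') : ℝ) * (((cosCx H d).cells d).card : ℝ) := by
        exact_mod_cast h1
    _ ≤ _ := by gcongr

theorem weight_lower (d i : ℕ) (hd : d + 1 ≤ Fintype.card S) (hi : i ≤ d) (Q : ℝ)
    (hQ : ∀ s, (Nat.card (H s) : ℝ) ≤ Q) (J : Finset S) (x : G) (hJ : J.card = i + 1) :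
    (Nat.card (HH H J) : ℝ) / Nat.card G ≤
      Q * 4 ^ Fintype.card S * (cosCx H d).weight d i (fc H J x) := by
  have hJne : J.Nonempty := by
    rw [← Finset.card_pos]
    omega
  have hup := le_up H d hd Q hQ J x hJne (by omega)
  have htop := top_le H d
  have htop0 : 0 < ((cosCx H d).cells d).card := Finset.card_pos.2 (cos_pure H d hd).1
  have hch0 : 0 < (d + 1).choose (i + 1) := Nat.choose_pos (by omega)
  have hch : (d + 1).choose (i + 1) ≤ 2 ^ Fintype.card S :=
    (Nat.choose_le_two_pow _ _).trans (Nat.pow_le_pow_right (by norm_num) hd)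
  have hG0 : (0 : ℝ) < Nat.card G := by exact_mod_cast Nat.card_pos
  have hQ0 : 0 ≤ Q := le_trans (Nat.cast_nonneg _) (hQ hJne.choose)
  obtain ⟨m, hm⟩ : ∃ m : ℕ, m = (((cosCx H d).cells d).filter fun τ => fc H J x ⊆ τ).card :=
    ⟨_, rfl⟩
  have hw : (cosCx H d).weight d i (fc H J x) =
      (m : ℝ) / ((((d + 1).choose (i + 1) : ℕ) : ℝ) * (((cosCx H d).cells d).card : ℝ)) := by
    unfold FinCx.weight
    rw [hm]
    congr!
  rw [← hm] at hup
  rw [hw]
  obtain ⟨u, hu⟩ : ∃ u : ℝ, u = (m : ℝ) := ⟨_, rfl⟩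
  have hu0 : 0 ≤ u := hu ▸ Nat.cast_nonneg _
  rw [← hu]
  rw [← hu] at hup
  have ha : (0 : ℝ) < (((d + 1).choose (i + 1) : ℕ) : ℝ) := by exact_mod_cast hch0
  have hb : (0 : ℝ) < (((cosCx H d).cells d).card : ℝ) := by exact_mod_cast htop0
  have ha' : (((d + 1).choose (i + 1) : ℕ) : ℝ) ≤ 2 ^ Fintype.card S := by exact_mod_cast hch
  have hb' : (((cosCx H d).cells d).card : ℝ) ≤ 2 ^ Fintype.card S * Nat.card G := by
    exact_mod_cast htop
  rw [← mul_div_assoc, div_le_div_iff₀ hG0 (mul_pos ha hb)]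
  calc (Nat.card (HH H J) : ℝ) * ((((d + 1).choose (i + 1) : ℕ) : ℝ) *
        (((cosCx H d).cells d).card : ℝ))
      ≤ (Q * u) * (2 ^ Fintype.card S * (2 ^ Fintype.card S * Nat.card G)) := by gcongr
    _ = Q * 4 ^ Fintype.card S * u * (Nat.card G : ℝ) := by
        have h4 : (4 : ℝ) ^ Fintype.card S = 2 ^ Fintype.card S * 2 ^ Fintype.card S := by
          rw [← mul_pow]; norm_num
        rw [h4]; ring

theorem weight_upper (d i : ℕ) (hd : d + 1 ≤ Fintype.card S) (hi : i ≤ d) (Q : ℝ)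
    (hQ : ∀ s, (Nat.card (H s) : ℝ) ≤ Q) (J : Finset S) (x : G) (hJ : J.card = i + 1) :
    (cosCx H d).weight d i (fc H J x) ≤
      Q * 2 ^ Fintype.card S * ((Nat.card (HH H J) : ℝ) / Nat.card G) := by
  have hJne : J.Nonempty := by
    rw [← Finset.card_pos]
    omega
  have hup := up_le H d J x hJne
  have htop := le_top' H d hd Q hQ
  have htop0 : 0 < ((cosCx H d).cells d).card := Finset.card_pos.2 (cos_pure H d hd).1
  have hch0 : 0 < (d + 1).choose (i + 1) := Nat.choose_pos (by omega)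
  have hG0 : (0 : ℝ) < Nat.card G := by exact_mod_cast Nat.card_pos
  have hQ0 : 0 ≤ Q := le_trans (Nat.cast_nonneg _) (hQ hJne.choose)
  obtain ⟨m, hm⟩ : ∃ m : ℕ, m = (((cosCx H d).cells d).filter fun τ => fc H J x ⊆ τ).card :=
    ⟨_, rfl⟩
  have hw : (cosCx H d).weight d i (fc H J x) =
      (m : ℝ) / ((((d + 1).choose (i + 1) : ℕ) : ℝ) * (((cosCx H d).cells d).card : ℝ)) := by
    unfold FinCx.weight
    rw [hm]
    congr!
  rw [← hm] at hup
  rw [hw]
  obtain ⟨u, hu⟩ : ∃ u : ℝ, u = (m : ℝ) := ⟨_, rfl⟩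
  have hu0 : 0 ≤ u := hu ▸ Nat.cast_nonneg _
  rw [← hu]
  have hu' : u ≤ 2 ^ Fintype.card S * (Nat.card (HH H J) : ℝ) := by
    rw [hu]
    exact_mod_cast hup
  have ha : (1 : ℝ) ≤ (((d + 1).choose (i + 1) : ℕ) : ℝ) := by exact_mod_cast hch0
  have ha0 : (0 : ℝ) < (((d + 1).choose (i + 1) : ℕ) : ℝ) := by linarith
  have hb : (0 : ℝ) < (((cosCx H d).cells d).card : ℝ) := by exact_mod_cast htop0
  rw [← mul_div_assoc, div_le_div_iff₀ (mul_pos ha0 hb) hG0]
  calc u * (Nat.card G : ℝ)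
      ≤ (2 ^ Fintype.card S * (Nat.card (HH H J) : ℝ)) *
        (Q * (((cosCx H d).cells d).card : ℝ)) := by gcongr
    _ = (Q * 2 ^ Fintype.card S * (Nat.card (HH H J) : ℝ)) *
        (1 * (((cosCx H d).cells d).card : ℝ)) := by ring
    _ ≤ (Q * 2 ^ Fintype.card S * (Nat.card (HH H J) : ℝ)) *
        ((((d + 1).choose (i + 1) : ℕ) : ℝ) * (((cosCx H d).cells d).card : ℝ)) := by gcongr

/-- degree bound -/
theorem cos_degree (d : ℕ) (Q : ℕ) (hQ : ∀ s, Nat.card (H s) ≤ Q) :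
    (cosCx H d).DegreeLE d (2 ^ Fintype.card S * Q) := by
  rintro ⟨s, q⟩
  obtain ⟨g, rfl⟩ := QuotientGroup.mk_surjective q
  have h1 : ∀ τ : Finset (CV H), (⟨s, (g : G ⧸ H s)⟩ : CV H) ∈ τ ↔ fc H {s} g ⊆ τ := by
    intro τ
    simp [fc]
  have h2 := up_le H d {s} g (Finset.singleton_nonempty s)
  simp only [h1]
  refine h2.trans (Nat.mul_le_mul_left _ ?_)
  exact (card_HH_le H (Finset.mem_singleton_self s)).trans (hQ s)

/-- number of vertices -/
theorem cos_vertices (d : ℕ) (s : S) (Q : ℕ) (hQ : ∀ s, Nat.card (H s) ≤ Q) :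
    Nat.card G ≤ Q * ((cosCx H d).cells 0).card := by
  have hG : Fintype G := Fintype.ofFinite _
  have hmaps : ∀ g ∈ (Finset.univ : Finset G), fc H {s} g ∈ ((cosCx H d).cells 0) := by
    intro g _
    rw [mem_cells H d 0 (Nat.zero_le d)]
    exact ⟨{s}, g, by simp, rfl⟩
  have h1 := Finset.card_le_mul_card_image_of_maps_to hmaps _ (fun τ _ => fib_le H {s} τ)
  rw [Finset.card_univ, ← Nat.card_eq_fintype_card] at h1
  refine h1.trans (Nat.mul_le_mul_right _ ?_)
  exact (card_HH_le H (Finset.mem_singleton_self s)).trans (hQ s)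

end

end Vale.P067
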