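import Mathlib
import Vale.Agent.Lib.P067.E.Wt

/-!
# P067 part E: comparison of the norm of the problem file with the group averages `nm`

* `nm_eq`: unfold; `HH H ∅ = ⊤`, the finsum over `⊤` is the number of `y` with `g J y ≠ 0`.
* `nm_eq_sum_faces`: `∑_{|J| = i+1} #{y | g J y ≠ 0}` is the number of pairs `(J, y)`, `|J| = i + 1`, with
  `f (fc H J y) ≠ 0`; group the pairs by the face `fc H J y` (`Finset.card_eq_sum_card_fiberwise` or `Nat.card_sigma`).
* `nm_le_nrm`, `nrm_le_nm`: termwise from `weight_lower`, `weight_upper`, `Nfib_fc` (every cell is some `fc H J x`,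
  `|J| = i + 1`, `mem_cells`).
-/

namespace Vale.P067

open scoped Classical

section
variable {S : Type} [Fintype S] {G : Type} [Group G] [Finite G] (H : S → Subgroup G)

omit [Fintype S] in
private theorem av_empty_eq (g : Finset S → G → ZMod 2) (J : Finset S) :
    av H ∅ 1 (fun y => if g J y = 0 then (0 : ℝ) else 1) =
      (Nat.card {y : G // g J y ≠ 0} : ℝ) / Nat.card G := by
  have hmem : ∀ x : G, x ∈ HH H (∅ : Finset S) := fun x => by
    simp [HH]
  let e : HH H (∅ : Finset S) ≃ G :=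
    { toFun := fun h => h.1
      invFun := fun x => ⟨x, hmem x⟩
      left_inv := fun h => rfl
      right_inv := fun x => rfl }
  have : Fintype G := Fintype.ofFinite G
  unfold av
  congr 1
  · have h1 : (∑ᶠ h : HH H (∅ : Finset S), (if g J (1 * (h : G)) = 0 then (0 : ℝ) else 1))
        = ∑ᶠ h : HH H (∅ : Finset S), (fun y : G => if g J y = 0 then (0 : ℝ) else 1) (e h) := by
      refine finsum_congr fun h => ?_
      rw [one_mul]
      rfl
    have h2 : (∑ᶠ h : HH H (∅ : Finset S), (fun y : G => if g J y = 0 then (0 : ℝ) else 1) (e h))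
        = ∑ᶠ y : G, (if g J y = 0 then (0 : ℝ) else 1) :=
      finsum_comp_equiv e (f := fun y : G => if g J y = 0 then (0 : ℝ) else 1)
    rw [h1, h2, finsum_eq_sum_of_fintype, Nat.card_eq_fintype_card, Fintype.card_subtype]
    rw [Finset.card_filter]
    push_cast
    refine Finset.sum_congr rfl fun y _ => ?_
    by_cases hy : g J y = 0 <;> simp [hy]
  · rw [Nat.card_congr e]

theorem nm_eq (i : ℕ) (g : Finset S → G → ZMod 2) :
    nm H ∅ 1 i g = ∑ J ∈ (Finset.univ : Finset S).powersetCard i,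
      (Nat.card {y : G // g J y ≠ 0} : ℝ) / Nat.card G := by
  unfold nm
  rw [Finset.compl_empty]
  exact Finset.sum_congr rfl fun J _ => av_empty_eq H g J

/-- `nm` as a sum over faces -/
theorem nm_eq_sum_faces (d i : ℕ) (hi : i ≤ d) (f : (cosCx H d).Cochain i)
    (g : Finset S → G → ZMod 2)
    (hg : ∀ (J : Finset S) (x : G), J.card = i + 1 →
      ∀ h : fc H J x ∈ (cosCx H d).cells i, g J x = f ⟨_, h⟩) :
    nm H ∅ 1 (i + 1) g = ∑ σ : {σ : Finset (CV H) // σ ∈ (cosCx H d).cells i},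
      if f σ ≠ 0 then (Nfib H i σ.1 : ℝ) / Nat.card G else 0 := by
  have : Fintype G := Fintype.ofFinite G
  set T : Finset (Finset S × G) :=
    (Finset.univ : Finset (Finset S × G)).filter fun p => p.1.card = i + 1 ∧ g p.1 p.2 ≠ 0 with hT
  have hcell : ∀ (J : Finset S) (x : G), J.card = i + 1 → fc H J x ∈ (cosCx H d).cells i :=
    fun J x hJ => (mem_cells H d i hi _).mpr ⟨J, x, hJ, rfl⟩
  -- left side
  have h1 : nm H ∅ 1 (i + 1) g = (T.card : ℝ) / Nat.card G := by
    rw [nm_eq, ← Finset.sum_div]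
    congr 1
    have h2 : T.card = ∑ J ∈ (Finset.univ : Finset S).powersetCard (i + 1),
        Nat.card {y : G // g J y ≠ 0} := by
      rw [Finset.card_eq_sum_card_fiberwise (f := Prod.fst)
        (t := (Finset.univ : Finset S).powersetCard (i + 1))]
      · refine Finset.sum_congr rfl fun J hJ => ?_
        have hJc := (Finset.mem_powersetCard.mp hJ).2
        rw [Nat.card_eq_fintype_card, Fintype.card_subtype]
        refine Finset.card_bij' (fun p _ => p.2) (fun y _ => (J, y)) ?_ ?_ ?_ ?_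
        · rintro ⟨J', y⟩ hp
          simp only [hT, Finset.mem_filter, Finset.mem_univ, true_and] at hp ⊢
          obtain ⟨⟨_, h3⟩, h4⟩ := hp
          rw [← h4]
          exact h3
        · intro y hy
          simp only [hT, Finset.mem_filter, Finset.mem_univ, true_and] at hy ⊢
          exact ⟨⟨hJc, hy⟩, trivial⟩
        · rintro ⟨J', y⟩ hp
          simp only [hT, Finset.mem_filter, Finset.mem_univ, true_and] at hp
          rw [← hp.2]
        · intro y _
          rfl
      · intro p hp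
        have hp' := Finset.mem_filter.mp (Finset.mem_coe.mp hp)
        exact Finset.mem_coe.mpr (Finset.mem_powersetCard.mpr ⟨Finset.subset_univ _, hp'.2.1⟩)
    rw [h2]
    push_cast
    rfl
  have h5 : T.card = ∑ σ ∈ (cosCx H d).cells i, (T.filter fun p => fc H p.1 p.2 = σ).card := by
    refine Finset.card_eq_sum_card_fiberwise (f := fun p : Finset S × G => fc H p.1 p.2)
      fun p hp => ?_
    have hp' := Finset.mem_filter.mp (Finset.mem_coe.mp hp)
    exact Finset.mem_coe.mpr (hcell _ _ hp'.2.1)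
  rw [h1, h5]
  push_cast
  rw [Finset.sum_div, ← Finset.sum_coe_sort]
  refine Finset.sum_congr rfl fun σ _ => ?_
  have hgσ : ∀ p : Finset S × G, p.1.card = i + 1 → fc H p.1 p.2 = σ.1 → g p.1 p.2 = f σ := by
    intro p hp1 hp2
    rw [hg p.1 p.2 hp1 (hcell _ _ hp1)]
    congr 1
    exact Subtype.ext hp2
  by_cases hf : f σ = 0
  · rw [if_neg (not_not.mpr hf)]
    have h6 : (T.filter fun p => fc H p.1 p.2 = σ.1) = ∅ := by
      refine Finset.filter_eq_empty_iff.mpr fun p hp => ?_
      have hp' := Finset.mem_filter.mp hp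
      intro h7
      exact hp'.2.2 ((hgσ p hp'.2.1 h7).trans hf)
    rw [h6, Finset.card_empty, Nat.cast_zero, zero_div]
  · rw [if_pos hf]
    congr 2
    unfold Nfib
    rw [Nat.card_eq_fintype_card, Fintype.card_subtype, hT, Finset.filter_filter]
    congr 1
    ext p
    simp only [Finset.mem_filter, Finset.mem_univ, true_and]
    constructor
    · rintro ⟨⟨h7, _⟩, h8⟩
      exact ⟨h7, h8⟩
    · rintro ⟨h7, h8⟩
      exact ⟨⟨h7, fun h9 => hf ((hgσ p h7 h8).symm.trans h9)⟩, h8⟩

theorem nm_le_nrm (d i : ℕ) (hd : d + 1 ≤ Fintype.card S) (hi : i ≤ d) (Q : ℝ)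
    (hQ : ∀ s, (Nat.card (H s) : ℝ) ≤ Q) (f : (cosCx H d).Cochain i)
    (g : Finset S → G → ZMod 2)
    (hg : ∀ (J : Finset S) (x : G), J.card = i + 1 →
      ∀ h : fc H J x ∈ (cosCx H d).cells i, g J x = f ⟨_, h⟩) :
    nm H ∅ 1 (i + 1) g ≤ Q * 4 ^ Fintype.card S * (cosCx H d).nrm d f := by
  rw [nm_eq_sum_faces H d i hi f g hg, FinCx.nrm, Finset.mul_sum]
  refine Finset.sum_le_sum fun σ _ => ?_
  by_cases hf : f σ = 0
  · rw [if_neg (not_not.mpr hf), if_neg (not_not.mpr hf), mul_zero]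
  · rw [if_pos hf, if_pos hf]
    obtain ⟨J, x, hJ, hσ⟩ := (mem_cells H d i hi σ.1).mp σ.2
    rw [hσ, Nfib_fc H i J x hJ]
    exact weight_lower H d i hd hi Q hQ J x hJ

theorem nrm_le_nm (d i : ℕ) (hd : d + 1 ≤ Fintype.card S) (hi : i ≤ d) (Q : ℝ)
    (hQ : ∀ s, (Nat.card (H s) : ℝ) ≤ Q) (f : (cosCx H d).Cochain i)
    (g : Finset S → G → ZMod 2)
    (hg : ∀ (J : Finset S) (x : G), J.card = i + 1 →
      ∀ h : fc H J x ∈ (cosCx H d).cells i, g J x = f ⟨_, h⟩) :
    (cosCx H d).nrm d f ≤ Q * 2 ^ Fintype.card S * nm H ∅ 1 (i + 1) g := by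
  rw [nm_eq_sum_faces H d i hi f g hg, FinCx.nrm, Finset.mul_sum]
  refine Finset.sum_le_sum fun σ _ => ?_
  by_cases hf : f σ = 0
  · rw [if_neg (not_not.mpr hf), if_neg (not_not.mpr hf), mul_zero]
  · rw [if_pos hf, if_pos hf]
    obtain ⟨J, x, hJ, hσ⟩ := (mem_cells H d i hi σ.1).mp σ.2
    rw [hσ, Nfib_fc H i J x hJ]
    exact weight_upper H d i hd hi Q hQ J x hJ

end

end Vale.P067
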