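import Mathlib
import Vale.Agent.Lib.P067.E.Nm

/-!
# P067 part E: from `Exp` to coboundary expansion in the sense of the problem file

* `pull_inv`: `fc H J (x * h) = fc H J x` for `h ∈ HH H (∅ ∪ J)`.
* `dl_pull`: `dl (trPull f) J x = ∑_{s ∈ J} trPull f (J.erase s) x`, and the cells `σ ∈ X(i)` with `σ ⊆ fc H J x` are exactly
  the `fc H (J.erase s) x`, `s ∈ J`, all different.
* `exists_bdry`: `i = 0`: `b ∅` is invariant under `HH H ∅ = ⊤`, so it is a constant `c` and `dl b {s} x = c`.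
  `i = i' + 1`: define the cochain `a' : C^{i'}` by `a' ⟨fc H J x, _⟩ = b J x` (choose `J, x` with `mem_cells`; well defined by
  `fc_eq_iff` and `hb`), `a = cobd a'`; then as in `dl_pull`.
* `expander_of_Exp`: with `A = Q * 4 ^ n`, `B = Q * 2 ^ n`, `f̃ = trPull f`, `b` from `Exp`, `a` from `exists_bdry`:
  `‖δ f‖ ≥ nm (dl f̃) / A ≥ ε nm (f̃ - dl b) / A ≥ ε ‖f - a‖ / (A B) ≥ (ε / (A B)) dist`. (`csInf_le`, the set is bounded below
  by `0`; `A, B > 0` because `Q ≥ 1`: `Nat.card (H s) ≥ 1`.)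
-/

namespace Vale.P067

open scoped Classical

section
variable {S : Type} [Fintype S] {G : Type} [Group G] [Finite G] (H : S → Subgroup G)

/-- a cochain of the complex as a function of type and group element -/
noncomputable def trPull (d i : ℕ) (f : (cosCx H d).Cochain i) : Finset S → G → ZMod 2 :=
  fun J x => if h : fc H J x ∈ (cosCx H d).cells i then f ⟨_, h⟩ else 0

private noncomputable def trExt (d i : ℕ) (f : (cosCx H d).Cochain i) (σ : Finset (CV H)) :
    ZMod 2 :=
  if h : σ ∈ (cosCx H d).cells i then f ⟨σ, h⟩ else 0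

private theorem pull_eq (d i : ℕ) (f : (cosCx H d).Cochain i) (J : Finset S) (x : G) :
    trPull H d i f J x = trExt H d i f (fc H J x) := rfl

private theorem trExt_coe (d i : ℕ) (f : (cosCx H d).Cochain i)
    (σ : {σ : Finset (CV H) // σ ∈ (cosCx H d).cells i}) : trExt H d i f σ.1 = f σ := by
  unfold trExt
  rw [dif_pos σ.2]

theorem pull_inv (d i : ℕ) (f : (cosCx H d).Cochain i) : InvL H ∅ (i + 1) (trPull H d i f) := by
  intro J _ _ x h hh
  rw [Finset.empty_union] at hh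
  rw [pull_eq, pull_eq, fc_mul H hh]

private theorem tr_cells_sub (d i : ℕ) (hi : i ≤ d) (J : Finset S) (x : G)
    (hJ : J.card = i + 2) :
    ((cosCx H d).cells i).filter (fun σ => σ ⊆ fc H J x) =
      J.image (fun s => fc H (J.erase s) x) := by
  ext σ
  rw [Finset.mem_filter, Finset.mem_image, mem_cells H d i hi]
  constructor
  · rintro ⟨⟨J1, x1, h1, h2⟩, h3⟩
    obtain ⟨J', hJ', rfl⟩ := subset_fc H h3
    have hc : J'.card = i + 1 := by
      have e := congrArg Finset.card h2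
      rw [fc_card, fc_card] at e
      omega
    have hd1 : (J \ J').card = 1 := by
      rw [Finset.card_sdiff_of_subset hJ']
      omega
    obtain ⟨s, hs⟩ := Finset.card_eq_one.mp hd1
    have hsJ : s ∈ J \ J' := by rw [hs]; exact Finset.mem_singleton_self s
    rw [Finset.mem_sdiff] at hsJ
    refine ⟨s, hsJ.1, ?_⟩
    congr 1
    refine (Finset.eq_of_subset_of_card_le (fun t ht => ?_) ?_).symm
    · rw [Finset.mem_erase]
      exact ⟨fun h => hsJ.2 (h ▸ ht), hJ' ht⟩
    · rw [Finset.card_erase_of_mem hsJ.1]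
      omega
  · rintro ⟨s, hs, rfl⟩
    refine ⟨⟨J.erase s, x, ?_, rfl⟩, ?_⟩
    · rw [Finset.card_erase_of_mem hs]
      omega
    · rw [fc_subset_iff]
      refine ⟨Finset.erase_subset s J, ?_⟩
      rw [inv_mul_cancel]
      exact Subgroup.one_mem _

theorem dl_pull (d i : ℕ) (hi : i + 1 ≤ d) (f : (cosCx H d).Cochain i) (J : Finset S) (x : G)
    (hJ : J.card = i + 2) (h : fc H J x ∈ (cosCx H d).cells (i + 1)) :
    dl (trPull H d i f) J x = (cosCx H d).cobd f ⟨_, h⟩ := by
  have h1 : (cosCx H d).cobd f ⟨_, h⟩ =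
      ∑ σ : {σ : Finset (CV H) // σ ∈ (cosCx H d).cells i},
        (fun σ : Finset (CV H) => if σ ⊆ fc H J x then trExt H d i f σ else 0) σ.1 := by
    unfold FinCx.cobd
    refine Finset.sum_congr rfl fun σ _ => ?_
    simp only [trExt_coe]
    split_ifs <;> rfl
  rw [h1, Finset.sum_coe_sort ((cosCx H d).cells i)
    (fun σ : Finset (CV H) => if σ ⊆ fc H J x then trExt H d i f σ else 0),
    ← Finset.sum_filter, tr_cells_sub H d i (by omega) J x hJ, Finset.sum_image]
  · rfl
  · intro s hs s' hs' hss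
    have h2 := ((fc_eq_iff H _ _ _ _).mp hss).1
    exact Finset.erase_injOn J hs hs' h2

/-- an invariant function on types with `i` elements gives an element of `B^i` -/
theorem exists_bdry (d i : ℕ) (hi : i ≤ d) (b : Finset S → G → ZMod 2) (hb : InvL H ∅ i b) :
    ∃ a ∈ (cosCx H d).Bdry i, ∀ (J : Finset S) (x : G), J.card = i + 1 →
      ∀ h : fc H J x ∈ (cosCx H d).cells i, dl b J x = a ⟨_, h⟩ := by
  cases i with
  | zero =>
    refine ⟨fun _ => b ∅ 1, ⟨b ∅ 1, fun _ => rfl⟩, fun J x hJ _ => ?_⟩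
    obtain ⟨s, rfl⟩ := Finset.card_eq_one.mp hJ
    change ∑ t ∈ {s}, b (({s} : Finset S).erase t) x = b ∅ 1
    rw [Finset.sum_singleton, Finset.erase_singleton]
    have h1 := hb ∅ (Finset.disjoint_empty_left _) rfl 1 x (by
      rw [mem_HH_e]
      intro t ht
      simp at ht)
    rwa [one_mul] at h1
  | succ i' =>
    have hch : ∀ σ : {σ : Finset (CV H) // σ ∈ (cosCx H d).cells i'},
        ∃ (J : Finset S) (x : G), J.card = i' + 1 ∧ σ.1 = fc H J x := fun σ =>
      (mem_cells H d i' (by omega) σ.1).mp σ.2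
    choose Jc xc hJc hσc using hch
    let a' : (cosCx H d).Cochain i' := fun σ => b (Jc σ) (xc σ)
    have hpull : ∀ (J : Finset S) (x : G), J.card = i' + 1 → trPull H d i' a' J x = b J x := by
      intro J x hJ
      have hmem : fc H J x ∈ (cosCx H d).cells i' :=
        (mem_cells H d i' (by omega) _).mpr ⟨J, x, hJ, rfl⟩
      unfold trPull
      rw [dif_pos hmem]
      change b (Jc ⟨fc H J x, hmem⟩) (xc ⟨fc H J x, hmem⟩) = b J x
      have h1 := hσc ⟨fc H J x, hmem⟩
      have h2 := (fc_eq_iff H _ _ _ _).mp h1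
      obtain ⟨h3, h4⟩ := h2
      rw [← h3]
      have h5 := hb J (Finset.disjoint_empty_right _) hJ x (x⁻¹ * xc ⟨fc H J x, hmem⟩) (by
        rw [Finset.empty_union]
        exact h4)
      rwa [mul_inv_cancel_left] at h5
    refine ⟨(cosCx H d).cobd a', ⟨a', rfl⟩, fun J x hJ h => ?_⟩
    rw [← dl_pull H d i' (by omega) a' J x hJ h]
    unfold dl
    refine Finset.sum_congr rfl fun s hs => ?_
    rw [hpull]
    rw [Finset.card_erase_of_mem hs]
    omega

private theorem tr_nrm_nonneg (d i : ℕ) (f : (cosCx H d).Cochain i) :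
    0 ≤ (cosCx H d).nrm d f := by
  unfold FinCx.nrm
  refine Finset.sum_nonneg fun σ _ => ?_
  split_ifs
  · unfold FinCx.weight
    positivity
  · exact le_rfl

theorem expander_of_Exp (d : ℕ) (hd : d + 1 ≤ Fintype.card S) (Q : ℝ)
    (hQ : ∀ s, (Nat.card (H s) : ℝ) ≤ Q) (ε : ℝ) (hε : 0 < ε) (h : ∀ j < d, Exp H j ε) :
    (cosCx H d).CoboundaryExpander d
      (ε / ((Q * 4 ^ Fintype.card S) * (Q * 2 ^ Fintype.card S))) := by
  intro i hi f
  have hS : Nonempty S := Fintype.card_pos_iff.mp (by omega)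
  obtain ⟨s0⟩ := hS
  have hQ1 : 1 ≤ Q := by
    refine le_trans ?_ (hQ s0)
    have : 0 < Nat.card (H s0) := Nat.card_pos
    exact_mod_cast this
  have hQ0 : 0 < Q := by linarith
  set A : ℝ := Q * 4 ^ Fintype.card S with hA
  set B : ℝ := Q * 2 ^ Fintype.card S with hB
  have hA0 : 0 < A := by positivity
  have hB0 : 0 < B := by positivity
  obtain ⟨b, hb, hb2⟩ := h i hi (trPull H d i f) (pull_inv H d i f)
  obtain ⟨a, ha, ha2⟩ := exists_bdry H d i hi.le b hb
  have h1 : nm H ∅ 1 (i + 2) (dl (trPull H d i f)) ≤ A * (cosCx H d).nrm d ((cosCx H d).cobd f) :=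
    nm_le_nrm H d (i + 1) hd (by omega) Q hQ _ _
      (fun J x hJ hm => dl_pull H d i (by omega) f J x hJ hm)
  have h2 : (cosCx H d).nrm d (f - a) ≤ B * nm H ∅ 1 (i + 1) (trPull H d i f - dl b) := by
    refine nrm_le_nm H d i hd hi.le Q hQ _ _ (fun J x hJ hm => ?_)
    change trPull H d i f J x - dl b J x = f ⟨_, hm⟩ - a ⟨_, hm⟩
    rw [ha2 J x hJ hm]
    unfold trPull
    rw [dif_pos hm]
  have h3 : (cosCx H d).dist d f ((cosCx H d).Bdry i) ≤ (cosCx H d).nrm d (f - a) := by
    refine csInf_le ⟨0, ?_⟩ ⟨a, ha, rfl⟩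
    rintro _ ⟨a', _, rfl⟩
    exact tr_nrm_nonneg H d i _
  rw [div_mul_eq_mul_div, div_le_iff₀ (by positivity)]
  have h4 : ε * (cosCx H d).dist d f ((cosCx H d).Bdry i) ≤
      ε * (B * nm H ∅ 1 (i + 1) (trPull H d i f - dl b)) :=
    mul_le_mul_of_nonneg_left (h3.trans h2) hε.le
  have h5 := mul_le_mul_of_nonneg_left (hb2.trans h1) hB0.le
  calc ε * (cosCx H d).dist d f ((cosCx H d).Bdry i)
      ≤ ε * (B * nm H ∅ 1 (i + 1) (trPull H d i f - dl b)) := h4
    _ = B * (ε * nm H ∅ 1 (i + 1) (trPull H d i f - dl b)) := by ring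
    _ ≤ B * (A * (cosCx H d).nrm d ((cosCx H d).cobd f)) := h5
    _ = (cosCx H d).nrm d ((cosCx H d).cobd f) * (A * B) := by ring

end

end Vale.P067
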