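import Mathlib
import Vale.Agent.Lib.P067.Interface
import Vale.Agent.Lib.P067.E.Tr
import Vale.Agent.Lib.P067.E.Conn
import Vale.Agent.Lib.P067.E.Gfin

/-!
# P067 part E: final assembly from the statements of the parts A, S, B, C, D
-/

namespace Vale.P067

open scoped Classical

theorem final_of (hA : PartA) (hS : PartS) (hB : PartB) (hC : PartC) (hD : PartD) (d : ℕ)
    (hd : 1 ≤ d) : BoundedDegreeCoboundaryExpanders d := by
  have hn3 : 3 ≤ 2 * d + 1 := by omega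
  obtain ⟨β, hβ, qB, hB⟩ := hB (2 * d + 1)
  obtain ⟨lam, hlam, hA⟩ := hA (2 * d + 1) β hβ
  obtain ⟨qS, hS⟩ := hS (2 * d + 1) hn3 lam hlam
  obtain ⟨qC, hC⟩ := hC (2 * d + 1)
  obtain ⟨qD, hD⟩ := hD (2 * d + 1)
  obtain ⟨p, hp, hpp⟩ := Nat.exists_infinite_primes (qB + qS + qC + qD + 3)
  haveI : Fact p.Prime := ⟨hpp⟩
  have hcard : Fintype.card (ZMod p) = p := ZMod.card p
  have hodd : Odd (Fintype.card (ZMod p)) := by
    rw [hcard]
    exact hpp.odd_of_ne_two (by omega)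
  have h1 := hB (ZMod p) (by rw [hcard]; omega)
  have h2 := hS (ZMod p) (by rw [hcard]; omega)
  have h3 := hC (ZMod p) (by rw [hcard]; omega)
  have h4 := hD (ZMod p) (by rw [hcard]; omega) hodd
  have hgen : (⨆ s, Hs (ZMod p) (2 * d + 1) s) = ⊤ := by
    haveI : Nonempty (Fin (2 * d + 1)) := ⟨0⟩
    exact gen_of_van _ (h3 0 (by omega))
  -- the bound for the orders of the subgroups
  let Q : ℕ := ∑ s, Nat.card (Hs (ZMod p) (2 * d + 1) s)
  have hQ : ∀ (m : ℕ) (s : Fin (2 * d + 1)),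
      Nat.card (Hm (ZMod p) (2 * d + 1) m s) ≤ Q := by
    intro m s
    refine (card_Hm_le (ZMod p) (2 * d + 1) (by omega) m s).trans ?_
    exact Finset.single_le_sum (f := fun s => Nat.card (Hs (ZMod p) (2 * d + 1) s))
      (fun _ _ => Nat.zero_le _) (Finset.mem_univ s)
  obtain ⟨ε, hε, hA⟩ := hA (Q : ℝ)
  haveI hfin : ∀ m, Finite (Gm (ZMod p) (2 * d + 1) m) := fun m =>
    finite_Gm (ZMod p) (2 * d + 1) (by omega) m
  have hExp : ∀ m, 2 ≤ m → ∀ j < d, Exp (Hm (ZMod p) (2 * d + 1) m) j ε := by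
    intro m hm j hj
    refine hA (Gm (ZMod p) (2 * d + 1) m) (Hm (ZMod p) (2 * d + 1) m) ?_ (h2 hgen m hm)
      (h1 m hm) j (by omega) (h4 m hm j (by omega))
    intro s
    exact_mod_cast hQ m s
  have hQpos : (0 : ℝ) < Q := by
    have : 0 < Q := by
      refine lt_of_lt_of_le ?_ (hQ 2 0)
      exact Nat.card_pos
    exact_mod_cast this
  have hcardF : Fintype.card (Fin (2 * d + 1)) = 2 * d + 1 := Fintype.card_fin _
  refine ⟨2 ^ (2 * d + 1) * Q,
    ε / ((Q * 4 ^ Fintype.card (Fin (2 * d + 1))) * (Q * 2 ^ Fintype.card (Fin (2 * d + 1)))),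
    by positivity, fun m => CV (Hm (ZMod p) (2 * d + 1) (m + 2)),
    fun m => cosCx (Hm (ZMod p) (2 * d + 1) (m + 2)) d, ?_, ?_⟩
  · intro m
    have hpure := cos_pure (Hm (ZMod p) (2 * d + 1) (m + 2)) d (by rw [hcardF]; omega)
    have hexp := expander_of_Exp (Hm (ZMod p) (2 * d + 1) (m + 2)) d (by rw [hcardF]; omega)
      (Q : ℝ) (fun s => by exact_mod_cast hQ (m + 2) s) ε hε (hExp (m + 2) (by omega))
    refine ⟨hpure, ?_, ?_, hexp⟩
    · exact FinCx.connected_of_expander _ d hd hpure _ (by positivity) hexp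
    · have := cos_degree (Hm (ZMod p) (2 * d + 1) (m + 2)) d Q (hQ (m + 2))
      rwa [hcardF] at this
  · rw [Filter.tendsto_atTop_atTop]
    intro b
    refine ⟨Q * b, fun m hm => ?_⟩
    have h5 := cos_vertices (Hm (ZMod p) (2 * d + 1) (m + 2)) d 0 Q (hQ (m + 2))
    have h6 := card_Gm (ZMod p) (2 * d + 1) (by omega) (m + 2)
    have h7 : Q * b ≤ Q * ((cosCx (Hm (ZMod p) (2 * d + 1) (m + 2)) d).cells 0).card := by
      omega
    have hQpos' : 0 < Q := by exact_mod_cast hQpos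
    exact Nat.le_of_mul_le_mul_left h7 hQpos'

end Vale.P067
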